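import Vale.Agent.P150.Full.E.Sharp.Norm
import Vale.Agent.P150.Full.T.LocalLawMean
import Vale.Agent.P150.Beyond.Stability.Upper

/-!
# P150, the sharp diagonal law: the resolvent at `(θ, √D)`, without the rank-one term

On the good set the resolvent, the sandwiched coupling and the residual are regular in the sense of
`Quad`: Lipschitz in the parameter, `n^{-1/2}`-Lipschitz in the couplings, and jointly so.
-/

open Finset
open scoped Matrix.Norms.L2Operator ComplexConjugate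
open Vale.Agent.P150 Vale.Agent.P150.Fast Vale.Agent.P150.Full.T
open Vale.Agent.P150.Beyond
open Vale.Agent.P150.Beyond.Stability (OpBound bil)

namespace Vale.Agent.P150.Full.E.Sharp

variable {n : ℕ}

/-- A strength and the square roots of the variances. -/
structure Pt (n : ℕ) where
  θ : ℝ
  s : Fin n → ℝ

/-- An admissible parameter. -/
structure Pt.Ok (z : Pt n) : Prop where
  θ0 : 0 ≤ z.θ
  θ1 : z.θ ≤ 1
  s0 : ∀ i, 0 ≤ z.s i
  s1 : ∀ i, z.s i ≤ 1

/-- Two parameters at sup distance at most `δ`. -/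
structure Pt.Near (δ : ℝ) (z z' : Pt n) : Prop where
  θd : |z.θ - z'.θ| ≤ δ
  sd : ∀ i, |z.s i - z'.s i| ≤ δ

/-- The mean variance. -/
noncomputable def dval (z : Pt n) : ℝ := (∑ i, z.s i ^ 2) / n

/-- The parameters of the resolvent moved by `t` along `J + c` and smoothed by `e`. -/
noncomputable def lp (z : Pt n) (c t e : ℝ) : LawPar n :=
  ⟨z.θ + t, z.θ ^ 2 * dval z - c * t, e, z.s⟩

/-- The parameters of the resolvent. -/
noncomputable def lp0 (z : Pt n) : LawPar n := ⟨z.θ, z.θ ^ 2 * dval z, 0, z.s⟩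

theorem lp_zero (z : Pt n) (c : ℝ) : lp z c 0 0 = lp0 z := by simp [lp, lp0]

/-- The quadratic form of the matrix to invert. -/
noncomputable def formP (p : LawPar n) (g : Edge n → ℝ) (w : Fin n → ℝ) : ℝ :=
  (∑ i, (1 + p.c * p.b i ^ 2) * w i ^ 2) - p.θ * bil g (fun i => p.b i * w i) (fun i => p.b i * w i)

/-- The couplings are bounded and the form has a margin. -/
def Good (a : ℝ) (z : Pt n) (g : Edge n → ℝ) : Prop :=
  OpBound g 4 ∧ ∀ w : Fin n → ℝ, a * ∑ i, w i ^ 2 ≤ formP (lp0 z) g w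

theorem Good.mono {a b : ℝ} {z : Pt n} {g : Edge n → ℝ} (h : Good a z g) (hb : b ≤ a) :
    Good b z g :=
  ⟨h.1, fun w => (mul_le_mul_of_nonneg_right hb (Finset.sum_nonneg fun i _ => sq_nonneg _)).trans (h.2 w)⟩

theorem re_form (p : LawPar n) (g : Edge n → ℝ) (v : Fin n → ℂ) :
    (∑ i, conj (v i) * (mmat p g).mulVec v i).re
      = formP p g (fun i => (v i).re) + formP p g (fun i => (v i).im) := by
  have e : ∀ i, conj (v i) * (mmat p g).mulVec v i
      = ((1 + p.c * p.b i ^ 2 : ℝ) - (p.ε : ℂ) * Complex.I) * (conj (v i) * v i)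
        - ∑ j, ((p.θ * (p.b i * skMat n 1 g i j * p.b j) : ℝ) : ℂ) * (conj (v i) * v j) := fun i => by
    rw [mmat, amat, kmat, Matrix.sub_mulVec, Matrix.smul_mulVec]
    simp only [Pi.sub_apply, Pi.smul_apply, Matrix.mulVec_diagonal, smul_eq_mul]
    rw [mul_sub]
    congr 1
    · ring
    · simp only [Matrix.mulVec, dotProduct, bmat, Matrix.diagonal_mul, Matrix.mul_diagonal, cmat,
        Matrix.of_apply, Finset.mul_sum]
      push_cast
      exact Finset.sum_congr rfl fun j _ => by ring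
  simp only [e, Complex.re_sum, Complex.sub_re, Complex.mul_re, Complex.ofReal_re, Complex.ofReal_im,
    Complex.conj_re, Complex.conj_im, Complex.mul_im, Complex.I_re, Complex.I_im, Complex.sub_im,
    zero_mul, mul_zero, sub_zero, add_zero, mul_one, zero_sub, neg_mul, sub_neg_eq_add]
  simp only [formP, bil, Finset.mul_sum, ← Finset.sum_sub_distrib, ← Finset.sum_add_distrib]
  refine Finset.sum_congr rfl fun i _ => ?_
  rw [sub_add_sub_comm, ← Finset.sum_add_distrib]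
  congr 1
  · ring
  · exact Finset.sum_congr rfl fun j _ => by ring

theorem esq_split (v : Fin n → ℂ) : esq v = (∑ i, (v i).re ^ 2) + ∑ i, (v i).im ^ 2 := by
  rw [esq, ← Finset.sum_add_distrib]
  exact Finset.sum_congr rfl fun i _ => by rw [Complex.sq_norm, Complex.normSq_apply]; ring

/-- A margin of the form gives a bounded inverse. -/
theorem lres_coercive {p : LawPar n} {g : Edge n → ℝ} {a : ℝ} (ha : 0 < a)
    (h : ∀ w : Fin n → ℝ, a * ∑ i, w i ^ 2 ≤ formP p g w) :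
    IsUnit (mmat p g).det ∧ ‖lres p g‖ ≤ 1 / a :=
  inv_of_coercive ha fun v => by
    refine le_trans ?_ (Complex.re_le_norm _)
    rw [re_form, esq_split, mul_add]
    exact add_le_add (h _) (h _)

theorem norm_cmat_le {g : Edge n → ℝ} (hop : OpBound g 4) : ‖cmat g‖ ≤ 4 := by
  refine opNorm_le_of_esq (by norm_num) fun v => ?_
  have h := mulVec_sq_le (fun i j => (isCoupling_skMat n 1 g).1 i j) (by norm_num : (0 : ℝ) < 4) hop
  rw [esq_split, esq_split, mul_add]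
  refine add_le_add (le_trans (le_of_eq (Finset.sum_congr rfl fun i _ => ?_)) (h fun i => (v i).re))
    (le_trans (le_of_eq (Finset.sum_congr rfl fun i _ => ?_)) (h fun i => (v i).im)) <;>
  simp [Matrix.mulVec, dotProduct, cmat]

/-- The Euclidean distance of two disorders. -/
noncomputable def gdist (g g' : Edge n → ℝ) : ℝ := √(∑ e, (g e - g' e) ^ 2)

theorem gdist_nonneg (g g' : Edge n → ℝ) : 0 ≤ gdist g g' := Real.sqrt_nonneg _

/-- The scale of a change of the disorder. -/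
noncomputable def gscale (g g' : Edge n → ℝ) : ℝ := 2 * gdist g g' / √(n : ℝ)

theorem gscale_nonneg (g g' : Edge n → ℝ) : 0 ≤ gscale g g' := by
  unfold gscale gdist; positivity

/-- A family of matrices is regular on the set `P`. -/
def Reg (P : ∀ n : ℕ, Pt n → (Edge n → ℝ) → Prop)
    (F : ∀ n : ℕ, Pt n → (Edge n → ℝ) → Matrix (Fin n) (Fin n) ℂ) : Prop :=
  ∃ C : ℝ, 0 ≤ C ∧ ∀ (n : ℕ) (z z' : Pt n) (g g' : Edge n → ℝ) (δ : ℝ), 0 ≤ δ →
    z.Ok → z'.Ok → Pt.Near δ z z' → P n z g → P n z' g → P n z g' → P n z' g' →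
      Quad δ (gscale g g') C (F n z g) (F n z' g) (F n z g') (F n z' g')

variable {P Q : ∀ n : ℕ, Pt n → (Edge n → ℝ) → Prop}
  {F F' : ∀ n : ℕ, Pt n → (Edge n → ℝ) → Matrix (Fin n) (Fin n) ℂ}

theorem Reg.mono (h : Reg P F) (hQ : ∀ n z g, Q n z g → P n z g) : Reg Q F := by
  obtain ⟨C, hC, h⟩ := h
  exact ⟨C, hC, fun n z z' g g' δ hδ hz hz' hd h1 h2 h3 h4 =>
    h n z z' g g' δ hδ hz hz' hd (hQ _ _ _ h1) (hQ _ _ _ h2) (hQ _ _ _ h3) (hQ _ _ _ h4)⟩

theorem Reg.add (h : Reg P F) (h' : Reg P F') : Reg P fun n z g => F n z g + F' n z g := by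
  obtain ⟨C, hC, h⟩ := h
  obtain ⟨C', hC', h'⟩ := h'
  exact ⟨C + C', add_nonneg hC hC', fun n z z' g g' δ hδ hz hz' hd h1 h2 h3 h4 =>
    (h n z z' g g' δ hδ hz hz' hd h1 h2 h3 h4).add (h' n z z' g g' δ hδ hz hz' hd h1 h2 h3 h4)⟩

theorem Reg.sub (h : Reg P F) (h' : Reg P F') : Reg P fun n z g => F n z g - F' n z g := by
  obtain ⟨C, hC, h⟩ := h
  obtain ⟨C', hC', h'⟩ := h'
  exact ⟨C + C', add_nonneg hC hC', fun n z z' g g' δ hδ hz hz' hd h1 h2 h3 h4 =>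
    (h n z z' g g' δ hδ hz hz' hd h1 h2 h3 h4).sub (h' n z z' g g' δ hδ hz hz' hd h1 h2 h3 h4)⟩

theorem Reg.mul (h : Reg P F) (h' : Reg P F') : Reg P fun n z g => F n z g * F' n z g := by
  obtain ⟨C, hC, h⟩ := h
  obtain ⟨C', hC', h'⟩ := h'
  exact ⟨4 * (C * C'), by positivity, fun n z z' g g' δ hδ hz hz' hd h1 h2 h3 h4 =>
    (h n z z' g g' δ hδ hz hz' hd h1 h2 h3 h4).mul (h' n z z' g g' δ hδ hz hz' hd h1 h2 h3 h4)
      hδ (gscale_nonneg g g')⟩

theorem Reg.avg (h : Reg P F) : Reg P fun n z g => avgD (F n z g) := by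
  obtain ⟨C, hC, h⟩ := h
  exact ⟨C, hC, fun n z z' g g' δ hδ hz hz' hd h1 h2 h3 h4 =>
    (h n z z' g g' δ hδ hz hz' hd h1 h2 h3 h4).avg⟩

theorem norm_diagonal_le {f : Fin n → ℝ} {C : ℝ} (hC : 0 ≤ C) (h : ∀ i, |f i| ≤ C) :
    ‖Matrix.diagonal fun i => (f i : ℂ)‖ ≤ C := by
  rw [Matrix.l2_opNorm_diagonal]
  exact (pi_norm_le_iff_of_nonneg hC).2 fun i => by
    rw [Complex.norm_real, Real.norm_eq_abs]; exact h i

/-- Diagonal matrices of functions of the parameter. -/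
theorem reg_diag (f : ∀ n : ℕ, Pt n → Fin n → ℝ) {C : ℝ} (hC : 0 ≤ C)
    (h : ∀ n (z : Pt n), z.Ok → ∀ i, |f n z i| ≤ C)
    (h' : ∀ n (z z' : Pt n) (δ : ℝ), 0 ≤ δ → z.Ok → z'.Ok → Pt.Near δ z z' → ∀ i,
      |f n z i - f n z' i| ≤ C * δ) :
    Reg P fun n z _ => Matrix.diagonal fun i => (f n z i : ℂ) := by
  refine ⟨C, hC, fun n z z' g g' δ hδ hz hz' hd _ _ _ _ => Quad.of_param hC hδ (gscale_nonneg g g')
    (norm_diagonal_le hC (h n z hz)) (norm_diagonal_le hC (h n z' hz')) ?_⟩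
  rw [Matrix.diagonal_sub]
  simp only [← Complex.ofReal_sub]
  exact norm_diagonal_le (mul_nonneg hC hδ) (h' n z z' δ hδ hz hz' hd)

theorem abs_sq_sub_le {a b δ : ℝ} (ha : 0 ≤ a) (ha1 : a ≤ 1) (hb : 0 ≤ b) (hb1 : b ≤ 1)
    (h : |a - b| ≤ δ) : |a ^ 2 - b ^ 2| ≤ 2 * δ := by
  rw [show a ^ 2 - b ^ 2 = (a - b) * (a + b) by ring, abs_mul, abs_of_nonneg (add_nonneg ha hb),
    mul_comm 2 δ]
  exact mul_le_mul h (by linarith) (add_nonneg ha hb) ((abs_nonneg _).trans h)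

theorem dval_mem {z : Pt n} (hz : z.Ok) : 0 ≤ dval z ∧ dval z ≤ 1 :=
  ⟨div_nonneg (Finset.sum_nonneg fun i _ => sq_nonneg _) n.cast_nonneg,
    div_le_one_of_le₀ ((Finset.sum_le_sum (g := fun _ => (1 : ℝ)) fun i _ =>
      pow_le_one₀ (hz.s0 i) (hz.s1 i)).trans (by simp)) n.cast_nonneg⟩

theorem dval_sub_le {z z' : Pt n} {δ : ℝ} (hz : z.Ok) (hz' : z'.Ok) (h : Pt.Near δ z z') (hδ : 0 ≤ δ) :
    |dval z - dval z'| ≤ 2 * δ := by
  rw [dval, dval, ← sub_div, ← Finset.sum_sub_distrib, abs_div, Nat.abs_cast]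
  refine div_le_of_le_mul₀ n.cast_nonneg (by positivity) ((Finset.abs_sum_le_sum_abs _ _).trans
    ((Finset.sum_le_sum fun i _ => abs_sq_sub_le (hz.s0 i) (hz.s1 i) (hz'.s0 i) (hz'.s1 i) (h.sd i)).trans
    (le_of_eq ?_)))
  simp [mul_comm]

theorem reg_bmat : Reg P fun _ z _ => bmat z.s :=
  reg_diag (fun _ z i => z.s i) zero_le_one
    (fun _ _ hz i => abs_le.2 ⟨by linarith [hz.s0 i], hz.s1 i⟩)
    fun _ _ _ _ _ _ _ hd i => by rw [one_mul]; exact hd.sd i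

/-- A product of factors in `[-1, 1]`. -/
theorem abs_mul_sub_le {a b a' b' x y : ℝ} (ha : |a| ≤ 1) (hb : |b'| ≤ 1) (hx : |a - a'| ≤ x)
    (hy : |b - b'| ≤ y) : |a * b - a' * b'| ≤ x + y := by
  rw [show a * b - a' * b' = (a - a') * b' + a * (b - b') by ring]
  refine (abs_add_le _ _).trans (add_le_add ?_ ?_) <;> rw [abs_mul]
  · exact (mul_le_of_le_one_right (abs_nonneg _) hb).trans hx
  · exact (mul_le_of_le_one_left (abs_nonneg _) ha).trans hy

/-- The diagonal part. -/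
noncomputable def aVal (z : Pt n) (i : Fin n) : ℝ := 1 + z.θ ^ 2 * dval z * z.s i ^ 2

theorem aVal_bounds {z : Pt n} (hz : z.Ok) (i : Fin n) :
    1 ≤ aVal z i ∧ aVal z i ≤ 2 := by
  obtain ⟨h0, h1⟩ := dval_mem hz
  have := pow_le_one₀ hz.θ0 hz.θ1 (n := 2)
  have := pow_le_one₀ (hz.s0 i) (hz.s1 i) (n := 2)
  unfold aVal
  constructor
  · linarith [show 0 ≤ z.θ ^ 2 * dval z * z.s i ^ 2 by positivity]
  · linarith [mul_le_one₀ (mul_le_one₀ ‹z.θ ^ 2 ≤ 1› h0 h1) (sq_nonneg (z.s i)) ‹z.s i ^ 2 ≤ 1›]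

theorem reg_aVal : Reg P fun _ z _ => Matrix.diagonal fun i => (aVal z i : ℂ) := by
  refine reg_diag (fun _ z i => aVal z i) (C := 6) (by norm_num)
    (fun n z hz i => by rw [abs_of_nonneg (zero_le_one.trans (aVal_bounds hz i).1)]
                        linarith [(aVal_bounds hz i).2])
    fun n z z' δ hδ hz hz' hd i => ?_
  obtain ⟨a0, a1⟩ := dval_mem hz
  obtain ⟨b0, b1⟩ := dval_mem hz'
  have u : ∀ {x : ℝ}, 0 ≤ x → x ≤ 1 → |x| ≤ 1 := fun {x} h h' => by rwa [abs_of_nonneg h]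
  have t0 := pow_le_one₀ hz.θ0 hz.θ1 (n := 2)
  have t1 := pow_le_one₀ hz'.θ0 hz'.θ1 (n := 2)
  have h1 := abs_mul_sub_le (u (sq_nonneg z.θ) t0) (u b0 b1)
    (abs_sq_sub_le hz.θ0 hz.θ1 hz'.θ0 hz'.θ1 hd.θd) (dval_sub_le hz hz' hd hδ)
  have h2 := abs_mul_sub_le (u (by positivity) (mul_le_one₀ t0 a0 a1))
    (u (sq_nonneg (z'.s i)) (pow_le_one₀ (hz'.s0 i) (hz'.s1 i))) h1
    (abs_sq_sub_le (hz.s0 i) (hz.s1 i) (hz'.s0 i) (hz'.s1 i) (hd.sd i))
  simp only [aVal, add_sub_add_left_eq_sub]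
  linarith

/-- The scalar matrix of a function of the parameter. -/
theorem reg_scalar (r : ∀ n : ℕ, Pt n → ℝ) {C : ℝ} (hC : 0 ≤ C)
    (h : ∀ n (z : Pt n), z.Ok → |r n z| ≤ C)
    (h' : ∀ n (z z' : Pt n) (δ : ℝ), 0 ≤ δ → z.Ok → z'.Ok → Pt.Near δ z z' →
      |r n z - r n z'| ≤ C * δ) (hF : Reg P F) :
    Reg P fun n z g => (r n z : ℂ) • F n z g := by
  have hr : Reg P fun n z _ => Matrix.diagonal fun _ : Fin n => (r n z : ℂ) :=
    reg_diag (fun n z _ => r n z) hC (fun n z hz _ => h n z hz) fun n z z' δ hδ hz hz' hd _ =>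
      h' n z z' δ hδ hz hz' hd
  simpa only [Matrix.smul_eq_diagonal_mul] using hr.mul hF

theorem reg_cmat : Reg (fun _ _ g => OpBound g 4) fun _ _ g => cmat g := by
  refine ⟨4, by norm_num, fun n z z' g g' δ hδ _ _ _ h1 _ h3 _ =>
    Quad.of_disorder (by norm_num) hδ (gscale_nonneg g g') (norm_cmat_le h1) (norm_cmat_le h3)
      ((frob_cmat_le g g').trans ?_)⟩
  rw [gscale, ← mul_div_assoc]
  refine div_le_div_of_nonneg_right ?_ (Real.sqrt_nonneg _)
  have : √(2 : ℝ) ≤ 2 := (Real.sqrt_le_left zero_le_two).2 (by norm_num)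
  have h := gdist_nonneg g g'
  rw [show √(∑ e, (g e - g' e) ^ 2) = gdist g g' from rfl]
  nlinarith

theorem reg_kmat : Reg (fun _ _ g => OpBound g 4) fun _ z g => kmat (lp0 z) g :=
  (reg_bmat.mul reg_cmat).mul reg_bmat

theorem reg_mmat : Reg (fun _ _ g => OpBound g 4) fun _ z g => mmat (lp0 z) g := by
  have h := reg_aVal.sub (reg_scalar (fun _ z => z.θ) zero_le_one
    (fun _ z hz => by rw [abs_of_nonneg hz.θ0]; exact hz.θ1)
    (fun _ z z' δ _ _ _ hd => by rw [one_mul]; exact hd.θd) reg_kmat)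
  refine cast (congrArg _ (funext fun n => funext fun z => funext fun g => ?_)) h
  simp [mmat, amat, lp0, aVal, kmat]

/-- Closeness of parameters keeps a part of the margin. -/
theorem exists_good_near : ∃ K : ℝ, 0 < K ∧ ∀ (n : ℕ) (a δ : ℝ) (z z' : Pt n) (g : Edge n → ℝ),
    0 ≤ δ → z.Ok → z'.Ok → Pt.Near δ z z' → Good a z g → Good (a - K * δ) z' g := by
  obtain ⟨C, hC, h⟩ := reg_mmat
  refine ⟨C + 1, by linarith, fun n a δ z z' g hδ hz hz' hd hg => ⟨hg.1, fun w => ?_⟩⟩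
  have hq := (h n z z' g g δ hδ hz hz' hd hg.1 hg.1 hg.1 hg.1).zab
  have hS : 0 ≤ ∑ i, w i ^ 2 := Finset.sum_nonneg fun i _ => sq_nonneg _
  set v : Fin n → ℂ := fun i => (w i : ℂ)
  have hf : ∀ p : LawPar n, formP p g w = (∑ i, conj (v i) * (mmat p g).mulVec v i).re := fun p => by
    rw [re_form]; simp [v, formP, bil]
  have he : esq v = ∑ i, w i ^ 2 := by simp [esq, v, sq_abs]
  have hb : |formP (lp0 z) g w - formP (lp0 z') g w| ≤ C * δ * ∑ i, w i ^ 2 := by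
    rw [hf, hf, ← Complex.sub_re, ← Finset.sum_sub_distrib]
    simp only [← mul_sub, ← Pi.sub_apply, ← Matrix.sub_mulVec]
    refine (Complex.abs_re_le_norm _).trans ((norm_sum_le _ _).trans ?_)
    simp only [norm_mul, Complex.norm_conj]
    refine (Real.sum_mul_le_sqrt_mul_sqrt _ _ _).trans ?_
    have h1 := esq_mulVec_le (mmat (lp0 z) g - mmat (lp0 z') g) v
    refine (mul_le_mul_of_nonneg_left (Real.sqrt_le_sqrt (h1.trans (mul_le_mul_of_nonneg_right
      (pow_le_pow_left₀ (norm_nonneg _) hq 2) (esq_nonneg v)))) (Real.sqrt_nonneg _)).trans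
      (le_of_eq ?_)
    rw [Real.sqrt_mul (sq_nonneg _), Real.sqrt_sq (mul_nonneg hC hδ), ← he,
      show √(∑ i, ‖v i‖ ^ 2) = √(esq v) from rfl, mul_left_comm,
      Real.mul_self_sqrt (esq_nonneg v)]
  have := hg.2 w
  have := mul_nonneg hδ hS
  rw [sub_mul, add_mul, one_mul, add_mul]
  nlinarith [(abs_le.1 hb).2]

theorem reg_lres {a : ℝ} (ha : 0 < a) : Reg (fun _ z g => Good a z g) fun _ z g => lres (lp0 z) g := by
  obtain ⟨C, hC, h⟩ := reg_mmat.mono (Q := fun _ z g => Good a z g) fun _ _ _ h => h.1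
  refine ⟨invC (1 / a) C, by unfold invC; positivity,
    fun n z z' g g' δ hδ hz hz' hd h1 h2 h3 h4 => ?_⟩
  exact (h n z z' g g' δ hδ hz hz' hd h1 h2 h3 h4).inv hδ (gscale_nonneg g g')
    (lres_coercive ha h1.2) (lres_coercive ha h2.2) (lres_coercive ha h3.2) (lres_coercive ha h4.2)

/-- `b (J + c) b`. -/
noncomputable def nMat (c : ℝ) (z : Pt n) (g : Edge n → ℝ) : Matrix (Fin n) (Fin n) ℂ :=
  kmat (lp0 z) g + (c : ℂ) • (bmat z.s * bmat z.s)

/-- `G b (J + c) b G`. -/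
noncomputable def gnMat (c : ℝ) (z : Pt n) (g : Edge n → ℝ) : Matrix (Fin n) (Fin n) ℂ :=
  lres (lp0 z) g * nMat c z g * lres (lp0 z) g

/-- The residual as a matrix; only its diagonal matters. -/
noncomputable def xMat (c : ℝ) (z : Pt n) (g : Edge n → ℝ) : Matrix (Fin n) (Fin n) ℂ :=
  gnMat c z g - ((c + 2 * z.θ * dval z : ℝ) : ℂ) • (bmat z.s * bmat z.s)
    - ((z.θ ^ 2 : ℝ) : ℂ) • (avgD (bmat z.s * gnMat c z g * bmat z.s) * (bmat z.s * bmat z.s))

/-- The residual. -/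
noncomputable def xv (c : ℝ) (z : Pt n) (g : Edge n → ℝ) : Fin n → ℝ := rdiag (xMat c z g)

theorem reg_gnMat {a : ℝ} (ha : 0 < a) (c : ℝ) :
    Reg (fun _ z g => Good a z g) fun _ z g => gnMat c z g :=
  ((reg_lres ha).mul ((reg_kmat.mono fun _ _ _ h => h.1).add
    (reg_scalar (fun _ _ => c) (abs_nonneg c) (fun _ _ _ => le_rfl)
      (fun _ _ _ _ hδ _ _ _ => by rw [sub_self, abs_zero]; positivity) (reg_bmat.mul reg_bmat)))).mul
    (reg_lres ha)

theorem reg_xMat {a : ℝ} (ha : 0 < a) (c : ℝ) :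
    Reg (fun _ z g => Good a z g) fun _ z g => xMat c z g := by
  refine ((reg_gnMat ha c).sub (reg_scalar (fun n z => c + 2 * z.θ * dval z) (C := |c| + 6) (by positivity)
    (fun n z hz => ?_) (fun n z z' δ hδ hz hz' hd => ?_) (reg_bmat.mul reg_bmat))).sub
    (reg_scalar (fun n z => z.θ ^ 2) (C := 2) zero_le_two (fun n z hz => ?_)
      (fun n z z' δ hδ hz hz' hd => abs_sq_sub_le hz.θ0 hz.θ1 hz'.θ0 hz'.θ1 hd.θd)
      ((((reg_bmat.mul (reg_gnMat ha c)).mul reg_bmat).avg).mul (reg_bmat.mul reg_bmat)))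
  · obtain ⟨h0, h1⟩ := dval_mem hz
    refine (abs_add_le _ _).trans ?_
    rw [abs_of_nonneg (show 0 ≤ 2 * z.θ * dval z from mul_nonneg (mul_nonneg zero_le_two hz.θ0) h0)]
    nlinarith [mul_le_one₀ hz.θ1 h0 h1]
  · obtain ⟨h0, h1⟩ := dval_mem hz'
    rw [add_sub_add_left_eq_sub, mul_assoc, mul_assoc, ← mul_sub, abs_mul, abs_two]
    have := abs_mul_sub_le (by rw [abs_of_nonneg hz.θ0]; exact hz.θ1) (by rw [abs_of_nonneg h0]; exact h1)
      hd.θd (dval_sub_le hz hz' hd hδ)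
    nlinarith [mul_nonneg (abs_nonneg c) hδ]
  · rw [abs_of_nonneg (sq_nonneg _)]
    linarith [pow_le_one₀ hz.θ0 hz.θ1 (n := 2)]

end Vale.Agent.P150.Full.E.Sharp
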