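import Vale.Agent.P150.Full.T.LocalLawOp

/-!
# P150, the sharp diagonal law: a calculus of second differences

Four matrices indexed by two parameters and two disorders; operator norms for the differences in the
parameter, Frobenius norms for those in the disorder. The class is closed under sums, products,
inverses and normalised traces.
-/

open Finset
open scoped Matrix.Norms.L2Operator ComplexConjugate
open Vale.Agent.P150.Full.T

namespace Vale.Agent.P150.Full.E.Sharp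

variable {n : ℕ}

theorem frob_nonneg (A : Matrix (Fin n) (Fin n) ℂ) : 0 ≤ frob A := Real.sqrt_nonneg _

theorem frob_sq (A : Matrix (Fin n) (Fin n) ℂ) : frob A ^ 2 = ∑ i, ∑ j, ‖A i j‖ ^ 2 :=
  Real.sq_sqrt (Finset.sum_nonneg fun _ _ => Finset.sum_nonneg fun _ _ => sq_nonneg _)

theorem frob_eq_norm (A : Matrix (Fin n) (Fin n) ℂ) :
    frob A = ‖(WithLp.toLp 2 fun p : Fin n × Fin n => A p.1 p.2)‖ := by
  rw [EuclideanSpace.norm_eq, frob, Fintype.sum_prod_type]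

theorem frob_add_le (A B : Matrix (Fin n) (Fin n) ℂ) : frob (A + B) ≤ frob A + frob B := by
  simp only [frob_eq_norm]
  exact norm_add_le (WithLp.toLp 2 fun p : Fin n × Fin n => A p.1 p.2) (WithLp.toLp 2 _)

theorem frob_zero : frob (0 : Matrix (Fin n) (Fin n) ℂ) = 0 := by simp [frob]

theorem frob_neg (A : Matrix (Fin n) (Fin n) ℂ) : frob (-A) = frob A := by simp [frob]

theorem frob_smul (z : ℂ) (A : Matrix (Fin n) (Fin n) ℂ) : frob (z • A) = ‖z‖ * frob A := by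
  have e : ∀ i j, ‖(z • A) i j‖ ^ 2 = ‖z‖ ^ 2 * ‖A i j‖ ^ 2 := fun i j => by simp [mul_pow]
  simp only [frob, e, ← Finset.mul_sum]
  rw [Real.sqrt_mul (sq_nonneg _), Real.sqrt_sq (norm_nonneg _)]

theorem frob_transpose (A : Matrix (Fin n) (Fin n) ℂ) : frob A.conjTranspose = frob A := by
  rw [frob, frob, Finset.sum_comm]
  simp [Matrix.conjTranspose_apply]

theorem frob_mul_le_left (A B : Matrix (Fin n) (Fin n) ℂ) : frob (A * B) ≤ ‖A‖ * frob B := by
  refine le_of_pow_le_pow_left₀ two_ne_zero (mul_nonneg (norm_nonneg _) (frob_nonneg _)) ?_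
  rw [mul_pow, frob_sq, frob_sq, Finset.sum_comm, Finset.sum_comm (f := fun i j => ‖B i j‖ ^ 2),
    Finset.mul_sum]
  refine Finset.sum_le_sum fun j _ => ?_
  exact esq_mulVec_le A fun k => B k j

theorem frob_mul_le_right (A B : Matrix (Fin n) (Fin n) ℂ) : frob (A * B) ≤ frob A * ‖B‖ := by
  rw [← frob_transpose (A * B), Matrix.conjTranspose_mul]
  refine (frob_mul_le_left _ _).trans (le_of_eq ?_)
  rw [frob_transpose, Matrix.l2_opNorm_conjTranspose, mul_comm]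

theorem frob_le_sqrt_mul (A : Matrix (Fin n) (Fin n) ℂ) : frob A ≤ √(n : ℝ) * ‖A‖ := by
  refine le_of_pow_le_pow_left₀ two_ne_zero (by positivity) ?_
  rw [mul_pow, Real.sq_sqrt n.cast_nonneg, frob_sq, Finset.sum_comm]
  refine (Finset.sum_le_sum fun j _ => col_sq_le A j).trans (le_of_eq ?_)
  simp

theorem diag_sq_le (A : Matrix (Fin n) (Fin n) ℂ) : ∑ i, ‖A i i‖ ^ 2 ≤ frob A ^ 2 := by
  rw [frob_sq]
  exact Finset.sum_le_sum fun i _ =>
    Finset.single_le_sum (f := fun j => ‖A i j‖ ^ 2) (fun j _ => sq_nonneg _) (Finset.mem_univ i)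

theorem entry_le_frob (A : Matrix (Fin n) (Fin n) ℂ) (i j : Fin n) : ‖A i j‖ ≤ frob A := by
  refine Real.le_sqrt_of_sq_le (le_trans ?_ (Finset.single_le_sum
    (fun k _ => Finset.sum_nonneg fun l _ => sq_nonneg ‖A k l‖) (Finset.mem_univ i)))
  exact Finset.single_le_sum (f := fun k => ‖A i k‖ ^ 2) (fun k _ => sq_nonneg _) (Finset.mem_univ j)

theorem norm_one_le : ‖(1 : Matrix (Fin n) (Fin n) ℂ)‖ ≤ 1 := by
  rw [← Matrix.diagonal_one, Matrix.l2_opNorm_diagonal]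
  exact (pi_norm_le_iff_of_nonneg zero_le_one).2 fun _ => norm_one.le

/-- The normalised trace as a scalar matrix. -/
noncomputable def avgD (A : Matrix (Fin n) (Fin n) ℂ) : Matrix (Fin n) (Fin n) ℂ :=
  (A.trace / (n : ℂ)) • (1 : Matrix (Fin n) (Fin n) ℂ)

theorem avgD_sub (A B : Matrix (Fin n) (Fin n) ℂ) : avgD (A - B) = avgD A - avgD B := by
  simp only [avgD, Matrix.trace_sub, sub_div, sub_smul]

theorem avgD_add (A B : Matrix (Fin n) (Fin n) ℂ) : avgD (A + B) = avgD A + avgD B := by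
  simp only [avgD, Matrix.trace_add, add_div, add_smul]

theorem norm_avgD_le (A : Matrix (Fin n) (Fin n) ℂ) : ‖avgD A‖ ≤ ‖A‖ := by
  rw [avgD, norm_smul]
  exact (mul_le_of_le_one_right (norm_nonneg _) norm_one_le).trans (norm_trace_div_le A)

theorem norm_trace_le (A : Matrix (Fin n) (Fin n) ℂ) : ‖A.trace‖ ≤ √(n : ℝ) * frob A := by
  refine (norm_sum_le _ _).trans ?_
  have h := Real.sum_mul_le_sqrt_mul_sqrt univ (fun _ : Fin n => (1 : ℝ)) fun i => ‖A i i‖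
  simp only [one_mul, one_pow, Finset.sum_const, Finset.card_univ, Fintype.card_fin, nsmul_eq_mul,
    mul_one] at h
  exact h.trans (mul_le_mul_of_nonneg_left ((Real.sqrt_le_sqrt (diag_sq_le A)).trans_eq
    (Real.sqrt_sq (frob_nonneg A))) (Real.sqrt_nonneg _))

theorem frob_avgD_le (A : Matrix (Fin n) (Fin n) ℂ) : frob (avgD A) ≤ frob A := by
  rcases Nat.eq_zero_or_pos n with h | h
  · subst h; simp [frob]
  rw [avgD, frob_smul, norm_div, Complex.norm_natCast]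
  refine (mul_le_mul_of_nonneg_left ((frob_le_sqrt_mul _).trans
    (mul_le_of_le_one_right (Real.sqrt_nonneg _) norm_one_le)) (by positivity)).trans ?_
  rw [div_mul_eq_mul_div, div_le_iff₀ (by exact_mod_cast h)]
  refine (mul_le_mul_of_nonneg_right (norm_trace_le A) (Real.sqrt_nonneg _)).trans (le_of_eq ?_)
  rw [mul_right_comm, Real.mul_self_sqrt n.cast_nonneg, mul_comm]

/-- Bounds on four matrices: `a, b` at the two parameters for one disorder, `c, d` for the other. -/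
structure Quad (δ ε C : ℝ) (a b c d : Matrix (Fin n) (Fin n) ℂ) : Prop where
  nn : 0 ≤ C
  na : ‖a‖ ≤ C
  nb : ‖b‖ ≤ C
  nc : ‖c‖ ≤ C
  nd : ‖d‖ ≤ C
  zab : ‖a - b‖ ≤ C * δ
  zcd : ‖c - d‖ ≤ C * δ
  gac : frob (a - c) ≤ C * ε
  gbd : frob (b - d) ≤ C * ε
  mix : frob (a - b - c + d) ≤ C * (δ * ε)

variable {δ ε C C' : ℝ} {a b c d a' b' c' d' : Matrix (Fin n) (Fin n) ℂ}

theorem Quad.mono (h : Quad δ ε C a b c d) (hδ : 0 ≤ δ) (hε : 0 ≤ ε) (hC : C ≤ C') :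
    Quad δ ε C' a b c d :=
  ⟨h.nn.trans hC, h.na.trans hC, h.nb.trans hC, h.nc.trans hC, h.nd.trans hC,
    h.zab.trans (by gcongr), h.zcd.trans (by gcongr), h.gac.trans (by gcongr),
    h.gbd.trans (by gcongr), h.mix.trans (by gcongr)⟩

theorem Quad.of_param (hC : 0 ≤ C) (hδ : 0 ≤ δ) (hε : 0 ≤ ε) (ha : ‖a‖ ≤ C) (hb : ‖b‖ ≤ C)
    (hab : ‖a - b‖ ≤ C * δ) : Quad δ ε C a b a b := by
  refine ⟨hC, ha, hb, ha, hb, hab, hab, ?_, ?_, ?_⟩
  · rw [sub_self, frob_zero]; positivity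
  · rw [sub_self, frob_zero]; positivity
  · rw [show a - b - a + b = 0 by abel, frob_zero]; positivity

theorem Quad.of_disorder (hC : 0 ≤ C) (hδ : 0 ≤ δ) (hε : 0 ≤ ε) (ha : ‖a‖ ≤ C) (hc : ‖c‖ ≤ C)
    (hac : frob (a - c) ≤ C * ε) : Quad δ ε C a a c c := by
  refine ⟨hC, ha, ha, hc, hc, ?_, ?_, hac, hac, ?_⟩
  · rw [sub_self, norm_zero]; positivity
  · rw [sub_self, norm_zero]; positivity
  · rw [show a - a - c + c = 0 by abel, frob_zero]; positivity

theorem Quad.add (h : Quad δ ε C a b c d) (h' : Quad δ ε C' a' b' c' d') :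
    Quad δ ε (C + C') (a + a') (b + b') (c + c') (d + d') := by
  refine ⟨add_nonneg h.nn h'.nn, (norm_add_le _ _).trans (add_le_add h.na h'.na),
    (norm_add_le _ _).trans (add_le_add h.nb h'.nb), (norm_add_le _ _).trans (add_le_add h.nc h'.nc),
    (norm_add_le _ _).trans (add_le_add h.nd h'.nd), ?_, ?_, ?_, ?_, ?_⟩
  · rw [show a + a' - (b + b') = (a - b) + (a' - b') by abel, add_mul]
    exact (norm_add_le _ _).trans (add_le_add h.zab h'.zab)
  · rw [show c + c' - (d + d') = (c - d) + (c' - d') by abel, add_mul]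
    exact (norm_add_le _ _).trans (add_le_add h.zcd h'.zcd)
  · rw [show a + a' - (c + c') = (a - c) + (a' - c') by abel, add_mul]
    exact (frob_add_le _ _).trans (add_le_add h.gac h'.gac)
  · rw [show b + b' - (d + d') = (b - d) + (b' - d') by abel, add_mul]
    exact (frob_add_le _ _).trans (add_le_add h.gbd h'.gbd)
  · rw [show a + a' - (b + b') - (c + c') + (d + d')
      = (a - b - c + d) + (a' - b' - c' + d') by abel, add_mul]
    exact (frob_add_le _ _).trans (add_le_add h.mix h'.mix)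

theorem Quad.neg (h : Quad δ ε C a b c d) : Quad δ ε C (-a) (-b) (-c) (-d) := by
  refine ⟨h.nn, ?_, ?_, ?_, ?_, ?_, ?_, ?_, ?_, ?_⟩
  · rw [norm_neg]; exact h.na
  · rw [norm_neg]; exact h.nb
  · rw [norm_neg]; exact h.nc
  · rw [norm_neg]; exact h.nd
  · rw [show -a - -b = -(a - b) by abel, norm_neg]; exact h.zab
  · rw [show -c - -d = -(c - d) by abel, norm_neg]; exact h.zcd
  · rw [show -a - -c = -(a - c) by abel, frob_neg]; exact h.gac
  · rw [show -b - -d = -(b - d) by abel, frob_neg]; exact h.gbd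
  · rw [show -a - -b - -c + -d = -(a - b - c + d) by abel, frob_neg]; exact h.mix

theorem Quad.sub (h : Quad δ ε C a b c d) (h' : Quad δ ε C' a' b' c' d') :
    Quad δ ε (C + C') (a - a') (b - b') (c - c') (d - d') := by
  simpa only [sub_eq_add_neg] using h.add h'.neg

theorem Quad.avg (h : Quad δ ε C a b c d) : Quad δ ε C (avgD a) (avgD b) (avgD c) (avgD d) := by
  refine ⟨h.nn, (norm_avgD_le _).trans h.na, (norm_avgD_le _).trans h.nb,
    (norm_avgD_le _).trans h.nc, (norm_avgD_le _).trans h.nd, ?_, ?_, ?_, ?_, ?_⟩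
  · rw [← avgD_sub]; exact (norm_avgD_le _).trans h.zab
  · rw [← avgD_sub]; exact (norm_avgD_le _).trans h.zcd
  · rw [← avgD_sub]; exact (frob_avgD_le _).trans h.gac
  · rw [← avgD_sub]; exact (frob_avgD_le _).trans h.gbd
  · rw [← avgD_sub, ← avgD_sub, ← avgD_add]; exact (frob_avgD_le _).trans h.mix

theorem norm_mul_bound {P Q : Matrix (Fin n) (Fin n) ℂ} {A B : ℝ} (hP : ‖P‖ ≤ A) (hQ : ‖Q‖ ≤ B) :
    ‖P * Q‖ ≤ A * B :=
  (norm_mul_le _ _).trans (mul_le_mul hP hQ (norm_nonneg _) ((norm_nonneg P).trans hP))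

theorem frob_mul_bound_left {P Q : Matrix (Fin n) (Fin n) ℂ} {A B : ℝ} (hP : ‖P‖ ≤ A)
    (hQ : frob Q ≤ B) : frob (P * Q) ≤ A * B :=
  (frob_mul_le_left _ _).trans (mul_le_mul hP hQ (frob_nonneg _) ((norm_nonneg P).trans hP))

theorem frob_mul_bound_right {P Q : Matrix (Fin n) (Fin n) ℂ} {A B : ℝ} (hP : frob P ≤ A)
    (hQ : ‖Q‖ ≤ B) : frob (P * Q) ≤ A * B :=
  (frob_mul_le_right _ _).trans (mul_le_mul hP hQ (norm_nonneg _) ((frob_nonneg P).trans hP))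

theorem Quad.mul (h : Quad δ ε C a b c d) (h' : Quad δ ε C' a' b' c' d') (hδ : 0 ≤ δ) (hε : 0 ≤ ε) :
    Quad δ ε (4 * (C * C')) (a * a') (b * b') (c * c') (d * d') := by
  have hp : 0 ≤ C * C' := mul_nonneg h.nn h'.nn
  have hz : ∀ {p q p' q' : Matrix (Fin n) (Fin n) ℂ}, ‖p - q‖ ≤ C * δ → ‖q‖ ≤ C → ‖p'‖ ≤ C' →
      ‖p' - q'‖ ≤ C' * δ → ‖p * p' - q * q'‖ ≤ 4 * (C * C') * δ := fun {p q p' q'} h1 h2 h3 h4 => by
    rw [show p * p' - q * q' = (p - q) * p' + q * (p' - q') by noncomm_ring]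
    refine (norm_add_le _ _).trans ((add_le_add (norm_mul_bound h1 h3) (norm_mul_bound h2 h4)).trans ?_)
    nlinarith [mul_nonneg hp hδ]
  have hg : ∀ {p q p' q' : Matrix (Fin n) (Fin n) ℂ}, frob (p - q) ≤ C * ε → ‖q‖ ≤ C → ‖p'‖ ≤ C' →
      frob (p' - q') ≤ C' * ε → frob (p * p' - q * q') ≤ 4 * (C * C') * ε :=
    fun {p q p' q'} h1 h2 h3 h4 => by
    rw [show p * p' - q * q' = (p - q) * p' + q * (p' - q') by noncomm_ring]
    refine (frob_add_le _ _).trans ((add_le_add (frob_mul_bound_right h1 h3)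
      (frob_mul_bound_left h2 h4)).trans ?_)
    nlinarith [mul_nonneg hp hε]
  have hb : ∀ {p q : Matrix (Fin n) (Fin n) ℂ}, ‖p‖ ≤ C → ‖q‖ ≤ C' → ‖p * q‖ ≤ 4 * (C * C') :=
    fun {p q} h1 h2 => (norm_mul_bound h1 h2).trans (by linarith)
  refine ⟨by positivity, hb h.na h'.na, hb h.nb h'.nb, hb h.nc h'.nc, hb h.nd h'.nd,
    hz h.zab h.nb h'.na h'.zab, hz h.zcd h.nd h'.nc h'.zcd, hg h.gac h.nc h'.na h'.gac,
    hg h.gbd h.nd h'.nb h'.gbd, ?_⟩
  rw [show a * a' - b * b' - c * c' + d * d' = (a - b - c + d) * a' + (c - d) * (a' - c')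
    + ((b - d) * (a' - b') + d * (a' - b' - c' + d')) by noncomm_ring]
  refine (frob_add_le _ _).trans ((add_le_add ((frob_add_le _ _).trans (add_le_add
    (frob_mul_bound_right h.mix h'.na) (frob_mul_bound_left h.zcd h'.gac)))
    ((frob_add_le _ _).trans (add_le_add (frob_mul_bound_right h.gbd h'.zab)
    (frob_mul_bound_left h.nd h'.mix)))).trans (le_of_eq ?_))
  ring

/-- The constant of an inverse. -/
def invC (B C : ℝ) : ℝ := B + B ^ 2 * C + 2 * B ^ 3 * C ^ 2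

theorem Quad.inv {B : ℝ} (h : Quad δ ε C a b c d) (hδ : 0 ≤ δ) (hε : 0 ≤ ε)
    (ua : IsUnit a.det ∧ ‖a⁻¹‖ ≤ B) (ub : IsUnit b.det ∧ ‖b⁻¹‖ ≤ B) (uc : IsUnit c.det ∧ ‖c⁻¹‖ ≤ B)
    (ud : IsUnit d.det ∧ ‖d⁻¹‖ ≤ B) : Quad δ ε (invC B C) a⁻¹ b⁻¹ c⁻¹ d⁻¹ := by
  have hB : 0 ≤ B := (norm_nonneg _).trans ua.2
  have hC := h.nn
  have e : ∀ {p q : Matrix (Fin n) (Fin n) ℂ}, IsUnit p.det → IsUnit q.det →
      p⁻¹ - q⁻¹ = p⁻¹ * (q - p) * q⁻¹ := fun {p q} hp hq => by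
    rw [mul_sub, sub_mul, Matrix.nonsing_inv_mul _ hp, one_mul, mul_assoc,
      Matrix.mul_nonsing_inv _ hq, mul_one]
  have hB1 : B ≤ invC B C := by
    unfold invC
    linarith [show 0 ≤ B ^ 2 * C by positivity, show 0 ≤ 2 * B ^ 3 * C ^ 2 by positivity]
  have hB2 : B * C * B ≤ invC B C := by
    unfold invC
    nlinarith [show 0 ≤ 2 * B ^ 3 * C ^ 2 by positivity]
  have hz : ∀ {p q : Matrix (Fin n) (Fin n) ℂ}, IsUnit p.det ∧ ‖p⁻¹‖ ≤ B → IsUnit q.det ∧ ‖q⁻¹‖ ≤ B →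
      ‖p - q‖ ≤ C * δ → ‖p⁻¹ - q⁻¹‖ ≤ invC B C * δ := fun {p q} hp hq hpq => by
    rw [norm_sub_rev] at hpq
    rw [e hp.1 hq.1]
    refine (norm_mul_bound (norm_mul_bound hp.2 hpq) hq.2).trans ?_
    nlinarith [mul_le_mul_of_nonneg_right hB2 hδ]
  have hg : ∀ {p q : Matrix (Fin n) (Fin n) ℂ}, IsUnit p.det ∧ ‖p⁻¹‖ ≤ B → IsUnit q.det ∧ ‖q⁻¹‖ ≤ B →
      frob (p - q) ≤ C * ε → frob (p⁻¹ - q⁻¹) ≤ invC B C * ε := fun {p q} hp hq hpq => by
    rw [← frob_neg, neg_sub] at hpq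
    rw [e hp.1 hq.1]
    refine (frob_mul_bound_right (frob_mul_bound_left hp.2 hpq) hq.2).trans ?_
    nlinarith [mul_le_mul_of_nonneg_right hB2 hε]
  refine ⟨hB.trans hB1, ua.2.trans hB1, ub.2.trans hB1, uc.2.trans hB1, ud.2.trans hB1,
    hz ua ub h.zab, hz uc ud h.zcd, hg ua uc h.gac, hg ub ud h.gbd, ?_⟩
  have hac := e ua.1 uc.1
  have hbd := e ub.1 ud.1
  rw [show a⁻¹ - b⁻¹ - c⁻¹ + d⁻¹ = (a⁻¹ - b⁻¹) - (c⁻¹ - d⁻¹) by abel, e ua.1 ub.1, e uc.1 ud.1,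
    show a⁻¹ * (b - a) * b⁻¹ - c⁻¹ * (d - c) * d⁻¹ = (a⁻¹ - c⁻¹) * (b - a) * b⁻¹
      + (c⁻¹ * (-(a - b - c + d)) * b⁻¹ + c⁻¹ * (d - c) * (b⁻¹ - d⁻¹)) by noncomm_ring]
  have h1 : frob (a⁻¹ - c⁻¹) ≤ B * (C * ε) * B := by
    rw [hac]
    refine frob_mul_bound_right (frob_mul_bound_left ua.2 ?_) uc.2
    rw [← frob_neg, neg_sub]; exact h.gac
  have h2 : frob (b⁻¹ - d⁻¹) ≤ B * (C * ε) * B := by
    rw [hbd]
    refine frob_mul_bound_right (frob_mul_bound_left ub.2 ?_) ud.2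
    rw [← frob_neg, neg_sub]; exact h.gbd
  have h3 : ‖b - a‖ ≤ C * δ := by rw [norm_sub_rev]; exact h.zab
  have h4 : ‖d - c‖ ≤ C * δ := by rw [norm_sub_rev]; exact h.zcd
  have h5 : frob (-(a - b - c + d)) ≤ C * (δ * ε) := by rw [frob_neg]; exact h.mix
  refine (frob_add_le _ _).trans ((add_le_add (frob_mul_bound_right (frob_mul_bound_right h1 h3) ub.2)
    ((frob_add_le _ _).trans (add_le_add (frob_mul_bound_right (frob_mul_bound_left uc.2 h5) ub.2)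
    (frob_mul_bound_left (norm_mul_bound uc.2 h4) h2)))).trans ?_)
  unfold invC
  nlinarith [mul_nonneg hB (mul_nonneg hδ hε)]

/-- The real diagonal. -/
noncomputable def rdiag (A : Matrix (Fin n) (Fin n) ℂ) (i : Fin n) : ℝ := (A i i).re

theorem rdiag_sub (A B : Matrix (Fin n) (Fin n) ℂ) (i : Fin n) :
    rdiag (A - B) i = rdiag A i - rdiag B i := by simp [rdiag]

theorem abs_rdiag_le (A : Matrix (Fin n) (Fin n) ℂ) (i : Fin n) : |rdiag A i| ≤ ‖A‖ :=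
  (Complex.abs_re_le_norm _).trans (entry_le A i i)

theorem abs_rdiag_le_frob (A : Matrix (Fin n) (Fin n) ℂ) (i : Fin n) : |rdiag A i| ≤ frob A :=
  (Complex.abs_re_le_norm _).trans (entry_le_frob A i i)

theorem rdiag_sq_le (A : Matrix (Fin n) (Fin n) ℂ) : ∑ i, rdiag A i ^ 2 ≤ frob A ^ 2 :=
  le_trans (Finset.sum_le_sum fun i _ => by
    rw [← sq_abs (rdiag A i)]
    exact pow_le_pow_left₀ (abs_nonneg _) (Complex.abs_re_le_norm _) 2) (diag_sq_le A)

end Vale.Agent.P150.Full.E.Sharp
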