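import Vale.Agent.P150.Full.E.Sharp.Form
import Vale.Agent.P150.Beyond.Stability.Event

/-!
# P150, the sharp diagonal law: the rank-one term costs a bounded amount
-/

open Finset
open scoped Matrix.Norms.L2Operator ComplexConjugate
open Vale.Agent.P150 Vale.Agent.P150.Fast Vale.Agent.P150.Full.T
open Vale.Agent.P150.Beyond
open Vale.Agent.P150.Beyond.Stability (OpBound bil)

namespace Vale.Agent.P150.Full.E.Sharp

variable {n : ℕ} {θ : ℝ} {g : Edge n → ℝ} {x : Fin n → ℝ}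

/-- The parameter of a magnetisation. -/
noncomputable def ptOf (θ : ℝ) (x : Fin n → ℝ) : Pt n := ⟨θ, fun i => √(1 - x i ^ 2)⟩

/-- A real matrix over the complex numbers. -/
noncomputable def cx (A : Matrix (Fin n) (Fin n) ℝ) : Matrix (Fin n) (Fin n) ℂ :=
  (Complex.ofRealHom : ℝ →+* ℂ).mapMatrix A

theorem cx_apply (A : Matrix (Fin n) (Fin n) ℝ) (i j : Fin n) : cx A i j = (A i j : ℂ) := rfl

theorem re_form_cx (A : Matrix (Fin n) (Fin n) ℝ) (v : Fin n → ℂ) :
    (∑ i, conj (v i) * (cx A).mulVec v i).re = (∑ i, ∑ j, A i j * (v i).re * (v j).re)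
      + ∑ i, ∑ j, A i j * (v i).im * (v j).im := by
  simp only [Matrix.mulVec, dotProduct, cx_apply, Finset.mul_sum, Complex.re_sum,
    ← Finset.sum_add_distrib]
  refine Finset.sum_congr rfl fun i _ => Finset.sum_congr rfl fun j _ => ?_
  simp [Complex.mul_re, Complex.mul_im]
  ring

/-- A coercive real matrix has a bounded inverse. -/
theorem cx_coercive {A : Matrix (Fin n) (Fin n) ℝ} {a : ℝ} (ha : 0 < a)
    (h : ∀ w : Fin n → ℝ, a * ∑ i, w i ^ 2 ≤ ∑ i, ∑ j, A i j * w i * w j) :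
    IsUnit (cx A).det ∧ ‖(cx A)⁻¹‖ ≤ 1 / a :=
  inv_of_coercive ha fun v => by
    refine le_trans ?_ (Complex.re_le_norm _)
    rw [re_form_cx, esq_split, mul_add]
    exact add_le_add (h _) (h _)

theorem hessMat_form (θ : ℝ) (g : Edge n → ℝ) (x w : Fin n → ℝ) :
    ∑ i, ∑ j, hessMat θ g x i j * w i * w j = Stability.hess θ g x w := by
  rw [Stability.hess, sq (∑ i, x i * w i), Finset.sum_mul_sum]
  simp only [Finset.mul_sum, ← Finset.sum_sub_distrib, ← Finset.sum_add_distrib]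
  refine Finset.sum_congr rfl fun i _ => ?_
  rw [← Finset.sum_erase_add _ _ (Finset.mem_univ i),
    ← Finset.sum_erase_add (f := fun j => 2 * θ ^ 2 / (n : ℝ) * (x i * w i * (x j * w j))) _
      (Finset.mem_univ i),
    ← Finset.sum_erase_add (f := fun j => θ * (skMat n 1 g i j * w i * w j)) _ (Finset.mem_univ i)]
  have e : ∀ j ∈ univ.erase i, hessMat θ g x i j * w i * w j =
      -(2 * θ ^ 2 / (n : ℝ) * (x i * w i * (x j * w j))) - θ * (skMat n 1 g i j * w i * w j) :=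
    fun j hj => by
      simp only [hessMat, coupMat, Matrix.sub_apply, Matrix.smul_apply, Matrix.vecMulVec_apply,
        Matrix.of_apply, Matrix.diagonal_apply_ne _ (Finset.ne_of_mem_erase hj).symm, smul_eq_mul]
      ring
  rw [Finset.sum_congr rfl e, Finset.sum_sub_distrib, Finset.sum_neg_distrib]
  simp only [hessMat, coupMat, Matrix.sub_apply, Matrix.smul_apply, Matrix.vecMulVec_apply,
    Matrix.of_apply, Matrix.diagonal_apply_eq, smul_eq_mul]
  ring

/-- The scaled Hessian. -/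
noncomputable def hatMat (θ : ℝ) (g : Edge n → ℝ) (x : Fin n → ℝ) : Matrix (Fin n) (Fin n) ℝ :=
  Matrix.diagonal (ptOf θ x).s * hessMat θ g x * Matrix.diagonal (ptOf θ x).s

theorem hatMat_form (θ : ℝ) (g : Edge n → ℝ) (x w : Fin n → ℝ) :
    ∑ i, ∑ j, hatMat θ g x i j * w i * w j
      = Stability.hess θ g x (fun i => (ptOf θ x).s i * w i) := by
  rw [← hessMat_form]
  simp only [hatMat, Matrix.mul_diagonal, Matrix.diagonal_mul]
  exact Finset.sum_congr rfl fun i _ => Finset.sum_congr rfl fun j _ => by ring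

theorem ptOf_pos (hx : ∀ i, |x i| < 1) (i : Fin n) : 0 < (ptOf θ x).s i :=
  Real.sqrt_pos.2 (by linarith [(sq_lt_one_iff_abs_lt_one _).2 (hx i)])

theorem ptOf_sq (hx : ∀ i, |x i| < 1) (i : Fin n) : (ptOf θ x).s i ^ 2 = 1 - x i ^ 2 :=
  Real.sq_sqrt (by linarith [(sq_lt_one_iff_abs_lt_one _).2 (hx i)])

theorem ptOf_ok (hθ0 : 0 ≤ θ) (hθ1 : θ ≤ 1) : (ptOf θ x).Ok :=
  ⟨hθ0, hθ1, fun i => Real.sqrt_nonneg _,
    fun i => Real.sqrt_le_one.2 (by linarith [sq_nonneg (x i)])⟩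

theorem dval_ptOf (hn : 0 < n) (hx : ∀ i, |x i| < 1) : dval (ptOf θ x) = 1 - qOf x := by
  simp only [dval, ptOf_sq hx, Finset.sum_sub_distrib, qOf, Finset.sum_const, Finset.card_univ,
    Fintype.card_fin, nsmul_eq_mul, mul_one]
  have : (n : ℝ) ≠ 0 := by exact_mod_cast hn.ne'
  field_simp

theorem hess_scale (hn : 0 < n) (hx : ∀ i, |x i| < 1) (w : Fin n → ℝ) :
    Stability.hess θ g x (fun i => (ptOf θ x).s i * w i) = formP (lp0 (ptOf θ x)) g w
      - 2 * θ ^ 2 / n * (∑ i, x i * ((ptOf θ x).s i * w i)) ^ 2 := by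
  rw [Stability.hess, formP, bil]
  simp only [lp0, mul_pow, ptOf_sq hx, dval_ptOf hn hx, add_mul, one_mul, Finset.sum_add_distrib,
    Finset.mul_sum, mul_assoc]
  have e : ∑ i, (1 - x i ^ 2) * w i ^ 2 / (1 - x i ^ 2) = ∑ i, w i ^ 2 :=
    Finset.sum_congr rfl fun i _ => mul_div_cancel_left₀ _ (by
      linarith [(sq_lt_one_iff_abs_lt_one _).2 (hx i)])
  rw [e, show (ptOf θ x).θ = θ from rfl]
  ring

/-- The margin of the Hessian, scaled. -/
theorem hat_margin {γ : ℝ} (hn : 0 < n) (hθ0 : 0 ≤ θ) (hθ1 : θ ≤ 1) (hγ : 0 < γ) (hop : OpBound g 4)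
    (hx : ∀ i, |x i| < 1) (hm : ∀ v, γ * ∑ i, v i ^ 2 ≤ Stability.hess θ g x v) :
    (∀ w : Fin n → ℝ, γ / (γ + 6) * ∑ i, w i ^ 2 ≤ ∑ i, ∑ j, hatMat θ g x i j * w i * w j) ∧
      Good (γ / (γ + 6)) (ptOf θ x) g := by
  have key : ∀ w : Fin n → ℝ, γ / (γ + 6) * ∑ i, w i ^ 2
      ≤ Stability.hess θ g x (fun i => (ptOf θ x).s i * w i) := fun w => by
    set v := fun i => (ptOf θ x).s i * w i
    have h1 := hm v
    have hS : 0 ≤ ∑ i, v i ^ 2 := Finset.sum_nonneg fun i _ => sq_nonneg _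
    have hd : 0 ≤ θ ^ 2 * (1 - qOf x) * ∑ i, v i ^ 2 := by
      rw [← dval_ptOf (θ := θ) hn hx]
      exact mul_nonneg (mul_nonneg (sq_nonneg θ) (dval_mem (ptOf_ok hθ0 hθ1)).1) hS
    have hr : 2 * θ ^ 2 / n * (∑ i, x i * v i) ^ 2 ≤ 2 * ∑ i, v i ^ 2 := by
      refine (mul_le_mul_of_nonneg_left (Finset.sum_mul_sq_le_sq_mul_sq _ _ _) (by positivity)).trans ?_
      rw [← mul_assoc]
      refine mul_le_mul_of_nonneg_right ?_ hS
      rw [div_mul_eq_mul_div, div_le_iff₀ (by exact_mod_cast hn)]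
      calc 2 * θ ^ 2 * ∑ i, x i ^ 2 ≤ 2 * 1 * ∑ _i : Fin n, (1 : ℝ) := by
            refine mul_le_mul (mul_le_mul_of_nonneg_left (pow_le_one₀ hθ0 hθ1) zero_le_two)
              (Finset.sum_le_sum fun i _ => ((sq_lt_one_iff_abs_lt_one _).2 (hx i)).le)
              (Finset.sum_nonneg fun i _ => sq_nonneg _) (by norm_num)
        _ = 2 * n := by simp
    have hb : θ * bil g v v ≤ 4 * ∑ i, v i ^ 2 :=
      (mul_le_mul_of_nonneg_left ((le_abs_self _).trans (hop v)) hθ0).trans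
        (mul_le_of_le_one_left (by positivity) hθ1)
    have hw : ∑ i, v i ^ 2 / (1 - x i ^ 2) = ∑ i, w i ^ 2 := Finset.sum_congr rfl fun i _ => by
      rw [mul_pow, ptOf_sq hx, mul_div_cancel_left₀ _
        (by linarith [(sq_lt_one_iff_abs_lt_one _).2 (hx i)])]
    have h2 : ∑ i, w i ^ 2 - 6 * ∑ i, v i ^ 2 ≤ Stability.hess θ g x v := by
      rw [bil] at hb
      rw [Stability.hess, hw]
      linarith
    rw [div_mul_eq_mul_div, div_le_iff₀ (by linarith)]
    nlinarith [mul_le_mul_of_nonneg_left h2 hγ.le]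
  refine ⟨fun w => (key w).trans_eq (hatMat_form θ g x w).symm, hop, fun w => (key w).trans ?_⟩
  rw [hess_scale hn hx]
  linarith [show 0 ≤ 2 * θ ^ 2 / (n : ℝ) * (∑ i, x i * ((ptOf θ x).s i * w i)) ^ 2 by positivity]

/-- The scaled rank-one matrix. -/
noncomputable def rankMat (θ : ℝ) (x : Fin n → ℝ) : Matrix (Fin n) (Fin n) ℂ :=
  cx ((2 * θ ^ 2 / n) • Matrix.vecMulVec (fun i => (ptOf θ x).s i * x i)
    fun i => (ptOf θ x).s i * x i)

theorem cx_hatMat (hn : 0 < n) (hx : ∀ i, |x i| < 1) :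
    cx (hatMat θ g x) = mmat (lp0 (ptOf θ x)) g - rankMat θ x := by
  ext i j
  simp only [Matrix.sub_apply, rankMat, cx_apply, hatMat, Matrix.mul_diagonal, Matrix.diagonal_mul,
    hessMat, coupMat, Matrix.smul_apply, Matrix.of_apply, Matrix.vecMulVec_apply, mmat, amat, kmat,
    bmat, cmat, lp0, smul_eq_mul, show (ptOf θ x).θ = θ from rfl, dval_ptOf hn hx]
  rcases eq_or_ne i j with h | h
  · subst h
    have hs := ptOf_sq (θ := θ) hx i
    have hne : 1 - x i ^ 2 ≠ 0 := by linarith [(sq_lt_one_iff_abs_lt_one _).2 (hx i)]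
    simp only [Matrix.diagonal_apply_eq]
    have hD : (ptOf θ x).s i * (1 / (1 - x i ^ 2)) * (ptOf θ x).s i = 1 := by
      rw [mul_right_comm, ← sq, hs]; field_simp
    have hD' := congrArg (fun r : ℝ => (r : ℂ)) hD
    push_cast at hD' ⊢
    linear_combination hD'
  · simp only [Matrix.diagonal_apply_ne _ h]
    push_cast
    ring

theorem frob_rankMat_le (hn : 0 < n) (hθ0 : 0 ≤ θ) (hθ1 : θ ≤ 1) (hx : ∀ i, |x i| < 1) :
    frob (rankMat θ x) ≤ 2 := by
  set u := fun i => (ptOf θ x).s i * x i with hu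
  have hu1 : ∀ i, u i ^ 2 ≤ 1 := fun i => by
    rw [hu, mul_pow, ptOf_sq hx]
    exact mul_le_one₀ (by linarith [sq_nonneg (x i)]) (sq_nonneg _)
      ((sq_lt_one_iff_abs_lt_one _).2 (hx i)).le
  have e : frob (rankMat θ x) = 2 * θ ^ 2 / n * ∑ i, u i ^ 2 := by
    rw [← Real.sqrt_sq (show 0 ≤ 2 * θ ^ 2 / (n : ℝ) * ∑ i, u i ^ 2 by positivity), frob]
    congr 1
    rw [mul_pow, sq (∑ i, u i ^ 2), Finset.sum_mul_sum, Finset.mul_sum]
    refine Finset.sum_congr rfl fun i _ => ?_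
    rw [Finset.mul_sum]
    refine Finset.sum_congr rfl fun j _ => ?_
    simp only [rankMat, cx_apply, Matrix.smul_apply, Matrix.vecMulVec_apply, smul_eq_mul,
      Complex.norm_real, Real.norm_eq_abs, sq_abs]
    ring
  rw [e, div_mul_eq_mul_div, div_le_iff₀ (by exact_mod_cast hn)]
  calc 2 * θ ^ 2 * ∑ i, u i ^ 2 ≤ 2 * 1 * ∑ _i : Fin n, (1 : ℝ) := by
        refine mul_le_mul (mul_le_mul_of_nonneg_left (pow_le_one₀ hθ0 hθ1) zero_le_two)
          (Finset.sum_le_sum fun i _ => hu1 i) (Finset.sum_nonneg fun i _ => sq_nonneg _) (by norm_num)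
    _ = 2 * n := by simp

/-- The inverse of the scaled Hessian is near the resolvent, and it gives the pins. -/
theorem reduce {a : ℝ} (hn : 0 < n) (hθ0 : 0 ≤ θ) (hθ1 : θ ≤ 1) (ha : 0 < a)
    (hx : ∀ i, |x i| < 1) (hg : Good a (ptOf θ x) g)
    (hm : ∀ w : Fin n → ℝ, a * ∑ i, w i ^ 2 ≤ ∑ i, ∑ j, hatMat θ g x i j * w i * w j) (c : ℝ) :
    √(∑ i, (respK c θ g x i i / (1 - x i ^ 2) - (1 - x i ^ 2) *
        (c + 2 * θ * (1 - qOf x) + θ ^ 2 / n * Matrix.trace (respK c θ g x))) ^ 2)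
      ≤ √(∑ i, xv c (ptOf θ x) g i ^ 2) + 8 * (4 + |c|) / a ^ 3 ∧
    |Matrix.trace (resp θ g x)
        - (bmat (ptOf θ x).s * lres (lp0 (ptOf θ x)) g * bmat (ptOf θ x).s).trace.re|
      ≤ √(n : ℝ) * (2 / a ^ 2) := by
  set z := ptOf θ x
  set G := lres (lp0 z) g
  set b := bmat z.s
  set Gh := (cx (hatMat θ g x))⁻¹
  obtain ⟨hdetH, hGh⟩ := cx_coercive ha hm
  obtain ⟨hdet, hG⟩ := lres_coercive ha hg.2
  have hb1 : ‖b‖ ≤ 1 := norm_diagonal_le zero_le_one fun i => abs_le.2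
    ⟨by linarith [(ptOf_ok (x := x) hθ0 hθ1).s0 i], (ptOf_ok hθ0 hθ1).s1 i⟩
  have hGG : frob (Gh - G) ≤ 2 / a ^ 2 := by
    have e : Gh - G = Gh * rankMat θ x * G := by
      have h1 : cx (hatMat θ g x) + rankMat θ x = mmat (lp0 z) g := by
        rw [cx_hatMat hn hx, sub_add_cancel]
      calc Gh - G = Gh * (mmat (lp0 z) g * G) - (Gh * cx (hatMat θ g x)) * G := by
            rw [show mmat (lp0 z) g * G = 1 from Matrix.mul_nonsing_inv _ hdet,
              show Gh * cx (hatMat θ g x) = 1 from Matrix.nonsing_inv_mul _ hdetH, mul_one, one_mul]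
        _ = Gh * rankMat θ x * G := by rw [← h1]; noncomm_ring
    rw [e]
    refine (frob_mul_bound_right (frob_mul_bound_left hGh (frob_rankMat_le hn hθ0 hθ1 hx)) hG).trans
      (le_of_eq ?_)
    field_simp
  -- the real inverse
  have hs : ∀ i, z.s i ≠ 0 := fun i => (ptOf_pos hx i).ne'
  have hHdet : IsUnit (hessMat θ g x).det := by
    have h : IsUnit (cx (hatMat θ g x)).det := hdetH
    rw [cx, ← RingHom.map_det, hatMat, Matrix.det_mul, Matrix.det_mul, isUnit_iff_ne_zero] at h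
    refine isUnit_iff_ne_zero.2 fun h0 => h ?_
    simp [h0]
  set bi := Matrix.diagonal fun i => 1 / z.s i
  have hbd : bi * Matrix.diagonal z.s = 1 ∧ Matrix.diagonal z.s * bi = 1 := by
    constructor <;> simp [bi, hs]
  have hinv : (hatMat θ g x) * (bi * resp θ g x * bi) = 1 := by
    rw [hatMat, show Matrix.diagonal (ptOf θ x).s = Matrix.diagonal z.s from rfl, resp]
    calc Matrix.diagonal z.s * hessMat θ g x * Matrix.diagonal z.s * (bi * (hessMat θ g x)⁻¹ * bi)
        = Matrix.diagonal z.s * hessMat θ g x * (Matrix.diagonal z.s * bi) * (hessMat θ g x)⁻¹ * bi := by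
          noncomm_ring
      _ = 1 := by rw [hbd.2, mul_one, mul_assoc (Matrix.diagonal z.s), Matrix.mul_nonsing_inv _ hHdet,
          mul_one, hbd.2]
  have hGhr : cx (bi * resp θ g x * bi) = Gh := (Matrix.inv_eq_right_inv (by
    rw [cx, cx, ← map_mul, hinv, map_one])).symm
  have hF : cx (resp θ g x) = b * Gh * b := by
    have hb : b = cx (Matrix.diagonal z.s) := by
      ext i j
      rcases eq_or_ne i j with h | h <;> simp [b, bmat, cx_apply, h, Matrix.diagonal]
    rw [hb, ← hGhr]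
    simp only [cx, ← map_mul]
    congr 1
    calc resp θ g x = (Matrix.diagonal z.s * bi) * resp θ g x * (bi * Matrix.diagonal z.s) := by
          rw [hbd.1, hbd.2, one_mul, mul_one]
      _ = _ := by noncomm_ring
  set N := nMat c z g
  have hN : ‖N‖ ≤ 4 + |c| := by
    refine (norm_add_le _ _).trans (add_le_add ?_ ?_)
    · refine (norm_mul_bound (norm_mul_bound hb1 (norm_cmat_le hg.1)) hb1).trans (by norm_num)
    · rw [norm_smul, Complex.norm_real, Real.norm_eq_abs]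
      exact mul_le_of_le_one_right (abs_nonneg _) ((norm_mul_bound hb1 hb1).trans (one_mul 1).le)
  have hK : cx (respK c θ g x) = b * (Gh * N * Gh) * b := by
    have hJ : cx (coupMat g + c • 1) = cmat g + (c : ℂ) • 1 := by
      ext i j
      rcases eq_or_ne i j with h | h <;> simp [cx_apply, coupMat, cmat, h]
    rw [respK, cx, map_mul, map_mul, ← cx, ← cx, hJ, hF]
    simp only [N, nMat, kmat, b, mul_add, add_mul, mul_smul_comm, smul_mul_assoc, mul_assoc, mul_one,
      show (lp0 z).b = z.s from rfl]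
  -- the comparison
  set M := Gh * N * Gh
  set Δ := M - gnMat c z g
  have hΔ : frob Δ ≤ 4 * (4 + |c|) / a ^ 3 := by
    have e : Δ = (Gh - G) * N * Gh + G * N * (Gh - G) := by
      simp only [Δ, M, gnMat]; noncomm_ring
    rw [e]
    refine (frob_add_le _ _).trans ((add_le_add (frob_mul_bound_right (frob_mul_bound_right hGG hN) hGh)
      (frob_mul_bound_left (norm_mul_bound hG hN) hGG)).trans (le_of_eq ?_))
    field_simp
    ring
  set X := xMat c z g + (Δ - ((θ ^ 2 : ℝ) : ℂ) • (avgD (b * Δ * b) * (b * b)))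
  have hX : ∀ i, rdiag X i = respK c θ g x i i / (1 - x i ^ 2) - (1 - x i ^ 2) *
      (c + 2 * θ * (1 - qOf x) + θ ^ 2 / n * Matrix.trace (respK c θ g x)) := fun i => by
    have eX : X = M - ((c + 2 * θ * dval z : ℝ) : ℂ) • (b * b)
        - ((θ ^ 2 : ℝ) : ℂ) • (avgD (b * M * b) * (b * b)) := by
      simp only [X, Δ, xMat, mul_sub, sub_mul, avgD_sub, smul_sub, show z.θ = θ from rfl,
        show bmat z.s = b from rfl]
      abel
    have hMi : M i i = (respK c θ g x i i / (1 - x i ^ 2) : ℝ) := by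
      have h := congrFun (congrFun hK i) i
      rw [cx_apply] at h
      simp only [b, bmat, Matrix.mul_diagonal, Matrix.diagonal_mul] at h
      rw [Complex.ofReal_div, h, ← ptOf_sq (θ := θ) hx i, Complex.ofReal_pow, eq_div_iff
        (pow_ne_zero 2 (Complex.ofReal_ne_zero.2 (hs i)))]
      ring
    have hT : (b * M * b).trace = ((Matrix.trace (respK c θ g x) : ℝ) : ℂ) := by
      rw [← hK, Matrix.trace, Matrix.trace, Complex.ofReal_sum]
      exact Finset.sum_congr rfl fun j _ => cx_apply _ j j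
    rw [eX, rdiag, Matrix.sub_apply, Matrix.sub_apply, hMi, avgD, hT]
    simp only [Matrix.smul_apply, smul_mul_assoc, one_mul, b, bmat, Matrix.diagonal_mul_diagonal,
      Matrix.diagonal_apply_eq, smul_eq_mul]
    rw [← ptOf_sq (θ := θ) hx i, show z = ptOf θ x from rfl, dval_ptOf hn hx]
    simp only [← Complex.ofReal_pow, ← Complex.ofReal_mul, ← Complex.ofReal_natCast,
      ← Complex.ofReal_div, ← Complex.ofReal_sub, ← sq, Complex.ofReal_re]
    ring
  refine ⟨?_, ?_⟩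
  · simp only [← hX]
    have hadd : ∀ i, rdiag X i = xv c z g i
        + rdiag (Δ - ((θ ^ 2 : ℝ) : ℂ) • (avgD (b * Δ * b) * (b * b))) i := fun i => by
      simp [X, xv, rdiag]
    simp only [hadd]
    refine (norm_pair _ _).trans (add_le_add le_rfl ((Real.sqrt_le_sqrt (rdiag_sq_le _)).trans ?_))
    rw [Real.sqrt_sq (frob_nonneg _), sub_eq_add_neg]
    refine (frob_add_le _ _).trans ?_
    rw [frob_neg, frob_smul, Complex.norm_real, Real.norm_of_nonneg (sq_nonneg θ)]
    have h1 : frob (avgD (b * Δ * b) * (b * b)) ≤ 4 * (4 + |c|) / a ^ 3 :=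
      (frob_mul_bound_right ((frob_avgD_le _).trans (frob_mul_bound_right
        (frob_mul_bound_left hb1 hΔ) hb1)) (norm_mul_bound hb1 hb1)).trans (le_of_eq (by ring))
    refine (add_le_add hΔ ((mul_le_of_le_one_left (frob_nonneg _) (pow_le_one₀ hθ0 hθ1)).trans h1)).trans
      (le_of_eq ?_)
    ring
  · have e : Matrix.trace (resp θ g x) = (b * Gh * b).trace.re := by
      rw [← hF]; simp [Matrix.trace, cx_apply]
    rw [e, ← Complex.sub_re, ← Matrix.trace_sub, ← sub_mul, ← mul_sub]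
    refine (Complex.abs_re_le_norm _).trans ((norm_trace_le _).trans (mul_le_mul_of_nonneg_left ?_
      (Real.sqrt_nonneg _)))
    exact (frob_mul_bound_right (frob_mul_bound_left hb1 hGG) hb1).trans (le_of_eq (by ring))
where
  norm_pair (p q : Fin n → ℝ) : √(∑ i, (p i + q i) ^ 2) ≤ √(∑ i, p i ^ 2) + √(∑ i, q i ^ 2) := by
    have h := norm_add_le (WithLp.toLp 2 p : EuclideanSpace ℝ (Fin n)) (WithLp.toLp 2 q)
    simpa [EuclideanSpace.norm_eq, sq_abs] using h

end Vale.Agent.P150.Full.E.Sharp
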